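import Mathlib
import Vale.Agent.P068.Line

/-!
P068: under the continuum hypothesis (indeed if every family of fewer than continuum many infinite
subsets of the naturals is split by one set) the packing/covering conjecture and the matroid
intersection conjecture both fail on countable ground sets.
-/

namespace Vale.Agent.Results.P068.FailsUnderCH

open Cardinal Vale.Agent.P068

theorem result :
    ((continuum : Cardinal.{0}) = aleph 1 ∨
      ∀ F : Set (Set ℕ), #F < continuum → (∀ A ∈ F, A.Infinite) →
        ∃ S : Set ℕ, ∀ A ∈ F, (A ∩ S).Infinite ∧ (A \ S).Infinite) →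
    (∃ M : ℤ → Matroid (ℤ × ℕ), (∀ i, (M i).E = Set.univ) ∧ ¬ HasPC M) ∧
      (∃ M N : Matroid (ℤ × (ℤ × ℕ)), M.E = Set.univ ∧ N.E = Set.univ ∧
        ¬ SatisfiesIntersection M N) :=
  fun h ↦ disproof (h.elim splitHyp_of_ch id)

end Vale.Agent.Results.P068.FailsUnderCH
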